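import Mathlib
import Vale.Agent.P249.LpRed.Reduce
import Vale.Agent.Results.P249.A1_NLogNNormed

open scoped ENNReal

namespace Vale.Agent.Results.P249.A00_NLogNLp

universe u

/-- For every `p ≥ 1` and `D > 1` there is `C = C(p, D)` such that any `n ≥ 2` elements of the space `L_p(μ)` over
any measure space are mapped into `ℓ_p^d`, `d ≤ C n log n`, by a map that does not decrease distances and
increases them by a factor at most `D`. -/
theorem result (p : ℝ) (hp : 1 ≤ p) (D : ℝ) (hD : 1 < D) :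
    ∃ C : ℝ, ∀ (α : Type u) [MeasurableSpace α] (μ : MeasureTheory.Measure α) (n : ℕ), 2 ≤ n →
      ∀ f : Fin n → MeasureTheory.Lp ℝ (ENNReal.ofReal p) μ,
      ∃ (d : ℕ) (F : Fin n → PiLp (ENNReal.ofReal p) (fun _ : Fin d => ℝ)),
        (d : ℝ) ≤ C * n * Real.log n ∧
        ∀ i j, ‖f i - f j‖ ≤ ‖F i - F j‖ ∧ ‖F i - F j‖ ≤ D * ‖f i - f j‖ := by
  obtain ⟨C, hC⟩ := Vale.Agent.P249.LpRed.main_Lp.{u} p hp D hD
  refine ⟨C, fun α _ μ n hn f => ?_⟩
  obtain ⟨d, F, hd, h⟩ := hC α μ n hn f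
  refine ⟨d, fun i => (WithLp.equiv (ENNReal.ofReal p) (Fin d → ℝ)).symm (F i), hd, fun i j => ?_⟩
  rw [Vale.Agent.Results.P249.A1_NLogNNormed.norm_sub_eq p hp]
  simpa using h i j

end Vale.Agent.Results.P249.A00_NLogNLp
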