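import Mathlib
import Vale.Agent.P249.Final

namespace Vale.Agent.Results.P249.NearLinear

/-- The distance of `ℓ_p^d`: `(∑_k |u_k - v_k|^p)^(1/p)`. -/
noncomputable def lpDist (p : ℝ) {d : ℕ} (u v : Fin d → ℝ) : ℝ :=
  (∑ k, |u k - v k| ^ p) ^ (1 / p)

/-- For every `p ≥ 1` and `D > 1` there is `C = C(p, D)` such that any `n ≥ 2` points of any
`ℓ_p^m` are mapped into `ℓ_p^d`, `d ≤ C n (log n)^(p+1)`, with distortion at most `D`, by a
weighted coordinate restriction `u ↦ (c_t u_{κ t})_t`. -/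
theorem result (p : ℝ) (hp : 1 ≤ p) (D : ℝ) (hD : 1 < D) :
    ∃ C : ℝ, ∀ n : ℕ, 2 ≤ n → ∀ (m : ℕ) (x : Fin n → Fin m → ℝ),
      ∃ (d : ℕ) (κ : Fin d → Fin m) (c : Fin d → ℝ),
        (d : ℝ) ≤ C * n * (Real.log n) ^ (p + 1) ∧
        ∀ i j,
          lpDist p (x i) (x j) ≤
            lpDist p (fun t => c t * x i (κ t)) (fun t => c t * x j (κ t)) ∧
          lpDist p (fun t => c t * x i (κ t)) (fun t => c t * x j (κ t)) ≤
            D * lpDist p (x i) (x j) := by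
  have hp0 : 0 < p := by linarith
  obtain ⟨C, hC⟩ := Vale.Agent.P249.main_pow p hp D hD
  refine ⟨C, ?_⟩
  intro n hn m x
  obtain ⟨d, κ, c, hd, h⟩ := hC n hn m x
  refine ⟨d, κ, c, hd, ?_⟩
  intro i j
  obtain ⟨h1, h2⟩ := h i j
  have hA : 0 ≤ ∑ k, |x i k - x j k| ^ p :=
    Finset.sum_nonneg (fun k _ => Real.rpow_nonneg (abs_nonneg _) _)
  have hB : 0 ≤ ∑ t, |c t * x i (κ t) - c t * x j (κ t)| ^ p :=
    Finset.sum_nonneg (fun k _ => Real.rpow_nonneg (abs_nonneg _) _)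
  have hq : 0 ≤ 1 / p := by positivity
  constructor
  · exact Real.rpow_le_rpow hA h1 hq
  · have h3 := Real.rpow_le_rpow hB h2 hq
    rw [Real.mul_rpow (Real.rpow_nonneg (by linarith) _) hA, ← Real.rpow_mul (by linarith),
      mul_one_div_cancel hp0.ne', Real.rpow_one] at h3
    exact h3

end Vale.Agent.Results.P249.NearLinear
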