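import Mathlib
import Vale.Agent.Results.P249.NearLinear

open scoped ENNReal

namespace Vale.Agent.Results.P249.P_NormedSpaceForm

theorem norm_sub_eq (p : ℝ) (hp : 1 ≤ p) (m : ℕ)
    (u v : PiLp (ENNReal.ofReal p) (fun _ : Fin m => ℝ)) :
    ‖u - v‖ = Vale.Agent.Results.P249.NearLinear.lpDist p (fun k => u k) (fun k => v k) := by
  have h0 : 0 < (ENNReal.ofReal p).toReal := by
    rw [ENNReal.toReal_ofReal (by linarith)]; linarith
  rw [PiLp.norm_eq_sum h0, ENNReal.toReal_ofReal (by linarith)]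
  simp [Real.norm_eq_abs, Vale.Agent.Results.P249.NearLinear.lpDist]

/-- For every `p ≥ 1` and `D > 1` there is `C = C(p, D)` such that for any `n ≥ 2` points of the
normed space `ℓ_p^m` (Mathlib's `PiLp`) there are `d ≤ C n (log n)^(p+1)` and a linear map from
`ℓ_p^m` to `ℓ_p^d` that does not decrease the distances between the points and increases them by
a factor at most `D`. -/
theorem result (p : ℝ) (hp : 1 ≤ p) (D : ℝ) (hD : 1 < D) :
    ∃ C : ℝ, ∀ n : ℕ, 2 ≤ n → ∀ (m : ℕ)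
      (x : Fin n → PiLp (ENNReal.ofReal p) (fun _ : Fin m => ℝ)),
      ∃ (d : ℕ) (f : PiLp (ENNReal.ofReal p) (fun _ : Fin m => ℝ) →ₗ[ℝ]
          PiLp (ENNReal.ofReal p) (fun _ : Fin d => ℝ)),
        (d : ℝ) ≤ C * n * (Real.log n) ^ (p + 1) ∧
        ∀ i j, ‖x i - x j‖ ≤ ‖f (x i) - f (x j)‖ ∧ ‖f (x i) - f (x j)‖ ≤ D * ‖x i - x j‖ := by
  obtain ⟨C, hC⟩ := Vale.Agent.Results.P249.NearLinear.result p hp D hD
  refine ⟨C, fun n hn m x => ?_⟩
  obtain ⟨d, κ, c, hd, h⟩ := hC n hn m (fun i k => x i k)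
  refine ⟨d, (WithLp.linearEquiv (ENNReal.ofReal p) ℝ (Fin d → ℝ)).symm.toLinearMap ∘ₗ
    (LinearMap.pi (fun t => c t • LinearMap.proj (κ t))) ∘ₗ
    (WithLp.linearEquiv (ENNReal.ofReal p) ℝ (Fin m → ℝ)).toLinearMap, hd, fun i j => ?_⟩
  rw [norm_sub_eq p hp, norm_sub_eq p hp]
  simpa using h i j

end Vale.Agent.Results.P249.P_NormedSpaceForm
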